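import Vale.Agent.P088.R2.H747.A.Rows
import Vale.Agent.P088.R2.H660.P.InT
import Vale.Agent.P088.R2.H660.P.Let

/-!
# P088, stage 3: the flat pass, the rows on the package

`b = true`: the leaf `P1` (critical slot `x`), `b = false`: the leaf `P2` (critical slot `y`).
-/

open Set Filter
open scoped ContDiff Topology

noncomputable section

namespace Vale.Agent.P088.R2.H660.P

open Vale.Agent.P088.LR
open Vale.Agent.P088.HY hiding dd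
open Vale.Agent.P088.R2.H961.GW Vale.Agent.P088.R2.H644 Vale.Agent.P088.R2.H960.W
open Vale.Agent.P088.R2.H551.E
open Vale.Agent.P088.R2.H31.EP Vale.Agent.P088.R2.H230.W
open Vale.Agent.P088.R2.H747.A (rr lS lS₁ lS₂ D₂ ff GG NG ee hh OmB Bd)
open Vale.Agent.P088.R2.H660.W (lat)

variable {n : ℕ}

/-! ## Letters -/

/-- The slot of the critical gradient. -/
def sP (d : Pk n) (b : Bool) : Sl (VV n) (Fin n) := bif b then d.sx else d.sy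

/-- The other slot. -/
def tP (d : Pk n) (b : Bool) : Sl (VV n) (Fin n) := bif b then d.sy else d.sx

/-- The direction `h ≈ -e` at the pass. -/
def hP (b : Bool) (l : Fin n) (z : VV n) : ℝ := bif b then hh l z else -hh l z

/-- `|W_x|²` (critical slot). -/
def Wc2 (q : Cst) (d : Pk n) (b : Bool) (z : VV n) : ℝ := ∑ i, (sP d b).D i (d.W q) z ^ 2

/-- The scale of the curvature: `κ ≤ L / r ≤ 9/4 κ` on `OmP`. -/
def kP (q : Cst) : ℝ := 12 / (25 * q.p₁)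

/-- The curvature `K = G L / r`. -/
def KP (q : Cst) (d : Pk n) (z : VV n) : ℝ := GG q d z * lS₁ q (rr d z) / rr d z

/-- **The open set of the pass.** -/
def OmP (q : Cst) (d : Pk n) (b : Bool) : Set (VV n) :=
  {z | z ∈ OmB q d ∧ (q.p₁ - 1) ^ 2 < d.r2 z ∧ d.r2 z < (2 * q.p₁ + 1) ^ 2 ∧
    Wc2 q d b z < (8 * q.rT * NG q d z) ^ 2}

/-! ## The rows (all of them for both leaves) -/

/-- **Row P-SZ.**  Sizes at the pass (`Φ' ≤ κ G`, `|W_x| ≤ κ G`). -/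
def RowPSz (n : ℕ) : Prop := ∀ N₁ e₂ : Cst → ℝ, NB_M₀ N₁ → NB_e₁ e₂ → (∀ q, 0 < e₂ q) →
  EvC fun q => 0 < kP q ∧ kP q ≤ e₂ q ∧ ∀ d : Pk n, PkOk q d → ∀ b : Bool, ∀ z ∈ OmP q d b,
    N₁ q ≤ GG q d z ∧ 0 ≤ d.N q z ∧ d.N q z ≤ kP q * GG q d z ∧
    nn (gr (sP d b) (d.W q) z) + 2 * d.N q z ≤ 2 * kP q * GG q d z ∧
    97 / 100 ≤ lS₁ q (rr d z) ∧ lS₁ q (rr d z) ≤ 103 / 100 ∧
    |lS₂ q (rr d z)| ≤ e₂ q * kP q ∧ 100 ≤ rr d z ∧
    kP q * GG q d z ≤ KP q d z ∧ KP q d z ≤ 9 / 4 * kP q * GG q d z ∧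
    0 ≤ deriv (deriv d.Φ) (d.u q z) ∧ deriv (deriv d.Φ) (d.u q z) ≤ 21 / 10 * d.N q z

/-- **Row P-BAS.**  The set, smoothness, the slots. -/
def RowPBas (n : ℕ) : Prop := ∀ ε₁ ε₀ : Cst → ℝ, NB_ε ε₁ → NB_σ ε₀ → (∀ q, 0 < ε₁ q) →
  (∀ q, 0 < ε₀ q) → EvC fun q => ∀ d : Pk n, PkOk q d → ∀ b : Bool, IsOpen (OmP q d b) ∧
    Sm (OmP q d b) (GG q d) ∧ Sm (OmP q d b) (KP q d) ∧ (∀ i, Sm (OmP q d b) (ee d i)) ∧
    (∀ i, Sm (OmP q d b) (hP b i)) ∧ ∀ z ∈ OmP q d b, Sb (sP d b) (ε₁ q) z ∧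
      Sb (tP d b) (ε₁ q) z ∧
      dd (fun j => ee d j z) (fun j => ee d j z) = 1 ∧
      dd (fun j => hP b j z) (fun j => hP b j z) = 1 ∧
      (∀ i, nn (fun j => (sP d b).D i (ee d j) z) ≤ 1) ∧
      Geo (sP d b) (tP d b) (d.u q) (rr d) (fun l => ee d l z) (fun l => hP b l z) (ε₀ q)
        (q.σ / (40 * q.R)) z

/-- **Row P-W.**  The derivatives of the weight; `C₁` is a number. -/
def RowPW (n : ℕ) : Prop := ∃ C₁ : ℝ, 1 ≤ C₁ ∧ ∃ C : Cst → ℝ, NB_M₀ C ∧ (∀ q, 1 ≤ C q) ∧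
  EvC fun q => ∀ d : Pk n, PkOk q d → ∀ b : Bool, ∀ z ∈ OmP q d b,
    Wb (sP d b) (tP d b) 0 0 (d.W q) (GG q d) (kP q) C₁ (C q) z ∧
    (∀ i j, |(tP d b).D i ((sP d b).D j (d.W q)) z| ≤ C₁ * kP q * GG q d z) ∧
    (∀ i j k, |(sP d b).D i ((sP d b).D j ((sP d b).D k (d.W q))) z| ≤ C q * GG q d z) ∧
    (∀ i j, |(sP d b).D i ((sP d b).D j (GG q d)) z| ≤ C q * GG q d z) ∧
    (∀ i, |(sP d b).D i (KP q d) z| ≤ C q * KP q d z) ∧
    (∀ i j, |(sP d b).D i (hP b j) z| ≤ C q)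

/-- **Row P-H2.**  The second derivatives in the critical slot, and `Γ₂`. -/
def RowPH2 (n : ℕ) : Prop := ∀ ε₂ : ℝ, 0 < ε₂ → EvC fun q => ∀ d : Pk n, PkOk q d → ∀ b : Bool,
  ∀ z ∈ OmP q d b,
    (∃ b', H2 (sP d b) (d.W q) (fun l => ee d l z) (fun l => hP b l z) (KP q d z) b' ε₂ z) ∧
    Ch.G2 (sP d b) (d.W q) z ≤ ((Fintype.card (Fin n) : ℝ) - 1 + 3 / 10) * KP q d z ^ 2

/-- **Row P-CRT.**  The two certificates: `β` depends on `KT` only, `c₀ = 1 / 8`, `c₂ = 1 / 3`. -/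
def RowPCrt (n : ℕ) : Prop := ∀ β : Cst → ℝ, NB_e₁ β → (∀ q, 0 < β q) →
  EvC fun q => ∀ d : Pk n, PkOk q d → ∀ b : Bool, ∀ z ∈ OmP q d b, ∀ A B : Fin n → ℝ,
    4 / 5 * KP q d z * lat (fun i => hP b i z) (sU (sP d b) z A) -
      β q * kP q * GG q d z * dd (sU (sP d b) z A) (sU (sP d b) z A) +
      GG q d z / 12 * dd (sU (tP d b) z B) (sU (tP d b) z B) ≤
      Ch.TH (sP d b) (tP d b) (d.W q) z A B + tc (tP d b) (cq (tP d b) (d.W q) (GG q d)) (d.W q) z B ∧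
    (0 < dd (gr (sP d b) (d.W q) z) (gr (sP d b) (d.W q) z) →
      1 / 8 * kP q * GG q d z * (dd A A + dd B B) ≤ Ch.TH (sP d b) (tP d b) (d.W q) z A B +
        tc (sP d b) (cv (sP d b) (ee d) (d.W q) fun l z => -(1 / 3 * kP q * GG q d z) * ee d l z)
          (d.W q) z A + tc (tP d b) (cq (tP d b) (d.W q) (GG q d)) (d.W q) z B)

/-- The function of the cost of the leaf with the cut-off `χ`. -/
def omP (d : Pk n) (χ : VV n → ℝ) (z : VV n) : ℝ :=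
  dD d.sx χ z + dD d.sy χ z + d.sx.Λ χ z ^ 2 + d.sy.Λ χ z ^ 2

/-- **Row P-SUP.**  The supports of the leaves. -/
def RowPSup (n : ℕ) : Prop := EvC fun q => ∀ d : Pk n, PkOk q d →
  Sm univ (d.ch q .P1) ∧ Sm univ (d.ch q .P2) ∧
    tsupport (d.ch q .P1) ⊆ OmP q d true ∧ tsupport (d.ch q .P2) ⊆ OmP q d false

end Vale.Agent.P088.R2.H660.P
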